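import Mathlib
import Vale.Agent.Lib.Helper4.XProdGeom

namespace Vale.Agent.Results.P184.TreeAction

open Vale.Agent.Lib.Helper4

theorem result {G : Type*} [Group G] {X : Type*} [PseudoMetricSpace X] [MulAction G X]
    [IsIsometricSMul G X]
    (hfour : ∀ x y z w : X,
      dist x y + dist z w ≤ max (dist x z + dist y w) (dist x w + dist y z))
    (q : ℕ) (e : Fin q → Fin q → G → ℂ)
    (hsum : ∀ i j, Summable (fun g => ‖e i j g‖))
    (hidem : ∀ i j g, ∑ k, ∑' h, e i k h * e k j (h⁻¹ * g) = e i j g)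
    (g₀ : G) (x₀ : X) (ℓ : ℝ) (hℓ : 0 < ℓ)
    (haxis : ∀ n : ℕ, dist (g₀ ^ n • x₀) x₀ = n * ℓ) :
    ∑' x : {x : G // IsConj g₀ x}, ∑ i, e i i x = 0 :=
  trace_vanish_of_axis hfour q e hsum hidem g₀ x₀ ℓ hℓ haxis

end Vale.Agent.Results.P184.TreeAction
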